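import Vale.Agent.P205.Bdl.B10

/-!
P205 (helper202): the loop functions with mean arbitrarily close to `1` (variant of `chiC` of
`Bdl.B10`).
-/

noncomputable section

open scoped ContDiff

namespace Vale.Agent.P205.TW

open Vale.Agent.P205.F

universe u

variable {P : Type u} {κ : Type} [Fintype κ] {S : DAlg P κ}

/-- existence of the loop functions, `Λ = 2 π n`, with mean at least `1 - τ0` -/
def ChiT (S : DAlg P κ) : Prop :=
  ∀ (r : P → ℂ), RSm S r → ∀ τ0 : ℝ, 0 < τ0 → ∃ (v : P → ℂ) (c1 : ℝ), 0 < c1 ∧ RSm S v ∧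
    (∀ p, 15 / 16 ≤ (v p).re ∧ (v p).re ≤ 1) ∧ (∀ p, 1 - τ0 ≤ (v p).re) ∧
    S.Zs (Kc r) (fun p => v p - 1) ∧
    (∀ p q, r p = r q → v p = v q) ∧
    ∃ N : ℕ, ∀ n : ℕ → ℕ, (∀ i, N ≤ n i) →
      Nonempty (LoopC S (fun i => 2 * Real.pi * (n i : ℝ)) r v τ0 c1)

/-- **(CHI)** with mean close to `1` -/
theorem chiT : ChiT S := by
  intro r hr τ0 hτ
  obtain ⟨Q⟩ := exists_profile hτ
  refine ⟨fun p => ((Q.V (r p).re : ℝ) : ℂ), Q.c₁, Q.c₁_pos,
    ⟨S.sm_comp (contDiff_ofReal' Q.V_smooth) hr.1 hr.2, Rl.ofReal _⟩,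
    fun p => ⟨by simpa using Q.V_pos _, by simpa using Q.V_le _⟩,
    fun p => by simpa using Q.V_ge _, ?_, fun p q hpq => by
      simp only [hpq], 1, fun n hn => ?_⟩
  · have h1 := chi_zs (S := S) hr (F := fun x => Q.V x - 1) (Q.V_smooth.sub contDiff_const)
      (fun x hx => by rw [Q.V_off x hx, sub_self])
    have e : (fun p => ((Q.V (r p).re - 1 : ℝ) : ℂ)) = fun p => ((Q.V (r p).re : ℝ) : ℂ) - 1 := by
      funext p
      push_cast
      ring
    rw [e] at h1
    exact h1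
  have hΛ : ∀ i, 1 ≤ 2 * Real.pi * (n i : ℝ) := fun i => one_le_mun (hn i)
  have hDr : ∀ j, S.FO (fun i => 2 * Real.pi * (n i : ℝ)) (fun _ => 1) (fun _ => S.D j r) :=
    fun j => chi_fo_fixed hΛ (S.sm_D j hr.1)
  refine ⟨{
    c := fun i p => ((Q.c (n i) (r p).re : ℝ) : ℂ)
    s := fun i p => ((Q.s (n i) (r p).re : ℝ) : ℂ)
    h := fun i p => ((Q.h (n i) (r p).re : ℝ) : ℂ)
    A := fun i p => ((Q.C (n i) (r p).re : ℝ) : ℂ)
    B := fun i p => ((Q.Sn (n i) (r p).re : ℝ) : ℂ)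
    fc := chi_fo hΛ hr fun i => Q.c_bd (n i) (hn i)
    fs := chi_fo hΛ hr fun i => Q.s_bd (n i) (hn i)
    fh := chi_fo hΛ hr fun i => Q.h_bd (n i) (hn i)
    fA := chi_fo hΛ hr fun i => Q.C_bd (n i) (hn i)
    fB := chi_fo hΛ hr fun i => Q.Sn_bd (n i) (hn i)
    rc := fun i => Rl.ofReal _
    rs := fun i => Rl.ofReal _
    rh := fun i => Rl.ofReal _
    rA := fun i => Rl.ofReal _
    rB := fun i => Rl.ofReal _
    circ := fun i p => by exact_mod_cast congrArg (fun x : ℝ => (x : ℂ)) (Q.circ (n i) (r p).re)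
    dc := fun j => by
      refine DAlg.FO.congr DAlg.FO.zero fun i p => ?_
      rw [chi_D hr (Q.c_bd (n i) (hn i)).1 (Q.c_deriv (n i) (hn i) (r p).re) j]
      push_cast
      simp only [Pi.zero_apply]
      ring
    ds := fun j => by
      refine DAlg.FO.congr DAlg.FO.zero fun i p => ?_
      rw [chi_D hr (Q.s_bd (n i) (hn i)).1 (Q.s_deriv (n i) (hn i) (r p).re) j]
      push_cast
      simp only [Pi.zero_apply]
      ring
    dA := fun j => by
      have h1 := (chi_fo (S := S) hΛ hr fun i => Q.eC_bd (n i) (hn i)).mul (hDr j)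
      refine (h1.congr_s fun i => one_mul 1).congr fun i p => ?_
      rw [chi_D hr (Q.C_bd (n i) (hn i)).1 (Q.C_deriv (n i) (hn i) (r p).re) j]
      push_cast
      simp only [Pi.mul_apply]
      ring
    dB := fun j => by
      have h1 := (chi_fo (S := S) hΛ hr fun i => Q.eS_bd (n i) (hn i)).mul (hDr j)
      refine (h1.congr_s fun i => one_mul 1).congr fun i p => ?_
      rw [chi_D hr (Q.Sn_bd (n i) (hn i)).1 (Q.Sn_deriv (n i) (hn i) (r p).re) j]
      push_cast
      simp only [Pi.mul_apply]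
      ring
    zc := fun i => by
      have h1 := chi_zs (S := S) hr (F := fun x => Q.c (n i) x - 1)
        ((Q.c_bd (n i) (hn i)).1.sub contDiff_const)
        (fun x hx => by rw [Q.c_off (n i) (hn i) x hx, sub_self])
      have e : (fun p => ((Q.c (n i) (r p).re - 1 : ℝ) : ℂ)) =
          fun p => ((Q.c (n i) (r p).re : ℝ) : ℂ) - 1 := by
        funext p
        push_cast
        ring
      rw [e] at h1
      exact h1
    zs := fun i => chi_zs hr (Q.s_bd (n i) (hn i)).1 (Q.s_off (n i) (hn i))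
    zh := fun i => chi_zs hr (Q.h_bd (n i) (hn i)).1 (Q.h_off (n i) (hn i))
    zA := fun i => chi_zs hr (Q.C_bd (n i) (hn i)).1 (Q.C_off (n i) (hn i))
    zB := fun i => chi_zs hr (Q.Sn_bd (n i) (hn i)).1 (Q.Sn_off (n i) (hn i))
    nd1 := fun i p => by
      rw [Complex.norm_real, Complex.norm_real, Complex.ofReal_re]
      rcases Q.nondeg (n i) (hn i) (r p).re with ⟨_, _, h3⟩ | ⟨_, h2, h3⟩
      · left
        exact h3.trans (le_abs_self _)
      · right
        exact ⟨h2, h3⟩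
    nd2 := fun i p h1 h2 => by
      rw [Complex.norm_real]
      rcases Q.nondeg (n i) (hn i) (r p).re with ⟨_, _, h3⟩ | ⟨h3 | h3, _, _⟩
      · exact h3.trans (le_abs_self _)
      · linarith
      · linarith
    ev := fun i p q hpq => by
      simp only [hpq]
      exact ⟨trivial, trivial, trivial, trivial, trivial⟩ }⟩

omit [Fintype κ] in
/-- the nondegeneracy constant of loop functions may be increased -/
theorem LoopC.mono {Λ : ℕ → ℝ} {r v : P → ℂ} {τ0 τ1 c1 : ℝ} (L : LoopC S Λ r v τ0 c1)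
    (h : τ0 ≤ τ1) : Nonempty (LoopC S Λ r v τ1 c1) :=
  ⟨{ L with
      nd1 := fun i p => (L.nd1 i p).imp_right fun h1 =>
        ⟨h1.1, h1.2.trans (mul_le_mul_of_nonneg_right h (by linarith [h1.1]))⟩ }⟩

end Vale.Agent.P205.TW

end
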