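import Vale.Agent.P205.H202.Geo
import Vale.Agent.P205.H366.FlexMan

/-!
P205, density: the immersion and the metric on the cover; exact maps near a strictly short immersion.
-/

noncomputable section

set_option linter.unusedSectionVars false

open scoped Manifold ContDiff Topology RealInnerProductSpace
open Set Filter

namespace Vale.Agent.P205.H202

open Vale.Agent.P205.F Vale.Agent.P205.TW Vale.Agent.P205.TW.Data Vale.Agent.P205.TW.DC

universe u

section loc

variable {E : Type} [NormedAddCommGroup E] [NormedSpace ℝ E]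
  {M : Type u} [TopologicalSpace M] [ChartedSpace E M] (K : Cov E M)
  (b : Module.Basis (Fin 2) ℝ E) [IsManifold 𝓘(ℝ, E) ∞ M] [CompactSpace M] (H : ImmN E M)

/-- the quadratic form of the induced metric on the cover -/
theorem qfm_met_cover (x : (lineM K b H).Pt) (ξ : Fin K.n × Fin 2 → ℝ) :
    qfm ((lineM K b H).cover.met (XC K b H)) x ξ =
      ‖Cov.dfE H.F ((lineM K b H).pi x) (∑ j, ξ j • K.XE b j ((lineM K b H).pi x))‖ ^ 2 := by
  have : FiniteDimensional ℝ E := Module.Basis.finiteDimensional_of_finite b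
  set p := (lineM K b H).pi x with hp
  have h1 : Cov.dfE H.F p (∑ j, ξ j • K.XE b j p) = ∑ j, ξ j • K.Dv b j H.F p := by
    rw [Cov.clm_exp (Cov.dfE H.F p) (c := ξ) (w := fun j => K.XE b j p) rfl]
    exact Finset.sum_congr rfl fun j _ => by rw [K.Dv_eqE b H.smF]
  rw [h1, EuclideanSpace.real_norm_sq_eq]
  have h2 : ∀ a, (∑ j, ξ j • K.Dv b j H.F p) a = ∑ j, K.Dv b j H.F p a * ξ j := by
    intro a
    rw [WithLp.ofLp_sum, Finset.sum_apply]
    exact Finset.sum_congr rfl fun j _ => by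
      rw [PiLp.smul_apply, smul_eq_mul, mul_comm]
  simp_rw [h2]
  have h3 : ∀ a, (∑ j, K.Dv b j H.F p a * ξ j) ^ 2 =
      ∑ j, ∑ k, (K.Dv b j H.F p a * ξ j) * (K.Dv b k H.F p a * ξ k) := by
    intro a
    rw [pow_two, Finset.sum_mul_sum]
  simp_rw [h3]
  rw [Finset.sum_comm]
  unfold qfm
  refine Finset.sum_congr rfl fun j _ => ?_
  rw [Finset.sum_comm]
  refine Finset.sum_congr rfl fun k _ => ?_
  have h4 : (lineM K b H).cover.met (XC K b H) j k x =
      ((∑ a, K.Dv b j H.F p a * K.Dv b k H.F p a : ℝ) : ℂ) := by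
    show ∑ a, (lineM K b H).cover.D j (XC K b H a) x * (lineM K b H).cover.D k (XC K b H a) x = _
    push_cast
    exact Finset.sum_congr rfl fun a _ => by rw [D_XC, D_XC]
  rw [h4, Complex.ofReal_re, Finset.sum_mul, Finset.sum_mul]
  refine Finset.sum_congr rfl fun a _ => ?_
  ring

variable (g : Bundle.ContMDiffRiemannianMetric 𝓘(ℝ, E) ∞ E (fun x : M => TangentSpace 𝓘(ℝ, E) x))

/-- shortness on the cover -/
theorem short_cover {θ : ℝ}
    (hs : ∀ (p : M) (v : E), ‖Cov.dfE H.F p v‖ ^ 2 ≤ (1 - θ) * Cov.gE g p v v)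
    (x : (lineM K b H).Pt) (ξ : Fin K.n × Fin 2 → ℝ) :
    qfm ((lineM K b H).cover.met (XC K b H)) x ξ ≤ (1 - θ) * qfm (gC K b H g) x ξ := by
  rw [qfm_met_cover, qfm_gC]
  exact hs _ _

end loc

end Vale.Agent.P205.H202

end
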