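import Vale.Agent.P205.H202.Slow
import Vale.Agent.P205.H366.FlexModel

/-!
P205 (helper202): the model maps converging uniformly to a strictly short initial map (variant of
`model_of'` of `H366.FlexModel`).
-/

noncomputable section

namespace Vale.Agent.P205.TW

open Vale.Agent.P205.F

universe u

variable {P : Type u} {κ : Type} [Fintype κ] {S : DAlg P κ} {τ : P → P} {g : κ → κ → P → ℂ}

/-- **MODEL** -/
theorem Shr.model {D : GeoC S τ g} {X1 : Fin 4 → P → ℂ} {θ : ℝ} (HS : Shr D X1 θ)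
    (hN : NashC S) (hχ : ChiT S) (hL : TData.LowerC S)
    (hT : TensC D) {κ1 : ℝ} (hκ : 0 < κ1) : ModelC' S τ g X1 κ1 := by
  obtain ⟨cG, cσ, c0, C', η0, hcG, hcσ, hc0, hC', hη0, -, hT⟩ := hT
  obtain ⟨c9, hc9, hA9⟩ := HS.slow_start
  have hθ0 := HS.θ0
  have hθ1 := HS.θ1
  -- fixed bounds
  obtain ⟨Ct, hCt0, hCt⟩ := sup_fin D.ray.smt
  obtain ⟨Cw, hCw0, hCw⟩ := sup_fin D.ray.smw
  obtain ⟨Cβ, hCβ0, hCβ⟩ := sup_fin D.ray.smβ
  obtain ⟨Cψ, hCψ0, hCψ⟩ := sup_fin (S := S) (u := fun j => S.D j D.ψ) fun j => S.sm_D j D.rψ.1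
  obtain ⟨Cr, hCr0, hCr⟩ := sup_fin (S := S) (u := fun j => S.D j D.r.Ψ)
    fun j => S.sm_D j D.ray.smΨ
  have hG0 : 0 ≤ 4 / cG := by positivity
  have hσ0 : 0 ≤ 2 / Real.sqrt cσ := by positivity
  set C : ℝ := 5 + 4 / cG + 2 / Real.sqrt cσ + C' + Ct + Cw + Cβ + Cψ + Cr with hCdef
  have hC5 : 5 ≤ C := by linarith only [hσ0, hG0, hCr0, hCψ0, hCβ0, hCw0, hCt0, hC']
  have hC0 : 0 < C := by linarith only [hσ0, hG0, hCr0, hCψ0, hCβ0, hCw0, hCt0, hC']
  -- loops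
  obtain ⟨τ0, hτ0, -, hgram⟩ := TData.formula_gram hL C c0 (D.c / C) 1 hC0 hc0
    (div_pos D.cpos hC0) one_pos
  obtain ⟨v, c1, hc1, hv, hv1, hvθ', hzv, hvr, N, hloop'⟩ := hχ D.r.Ψ ⟨D.ray.smΨ, D.ray.rΨ⟩
    (min τ0 (θ / 16)) (lt_min hτ0 (by positivity))
  have hvθ : ∀ p, 1 - θ / 16 ≤ (v p).re := fun p => by
    have := hvθ' p
    linarith [min_le_right τ0 (θ / 16)]
  have hloop : ∀ n : ℕ → ℕ, (∀ i, N ≤ n i) →
      Nonempty (LoopC S (fun i => 2 * Real.pi * (n i : ℝ)) D.r.Ψ v τ0 c1) := fun n hn => by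
    obtain ⟨L⟩ := hloop' n hn
    exact L.mono (min_le_left _ _)
  obtain ⟨c, hc, hgram⟩ := hgram c1 hc1
  have hvok : VOk S D.r.Ψ v := ⟨hv, hv1, hzv, hvr⟩
  have hT := hT v hvok
  obtain ⟨C2, hC2, hmet⟩ := hT.met
  have hF : Fix S D.ψ D.e v D.r := ⟨D.ray, D.rK, D.rψ.1, D.rψ.2, D.re.1, D.re.2, D.esq, D.eD,
    hv.1, hv.2, hv1, hzv⟩
  -- parameters
  set ε : ℕ → ℝ := fun i => 1 / ((i : ℝ) + 1) ^ 2 with hε
  set δ : ℕ → ℝ := fun i => θ / (16 * ((i : ℝ) + 1)) with hδ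
  have hi1 : ∀ i : ℕ, (1 : ℝ) ≤ (i : ℝ) + 1 := fun i => by
    have : (0 : ℝ) ≤ (i : ℝ) := Nat.cast_nonneg i
    linarith only [this]
  have hi0 : ∀ i : ℕ, (0 : ℝ) < (i : ℝ) + 1 := fun i => by linarith [hi1 i]
  have hεpos : ∀ i, 0 < ε i := fun i => div_pos one_pos (pow_pos (hi0 i) 2)
  have hε1 : ∀ i, ε i ≤ 1 := fun i => by
    simp only [hε]
    rw [div_le_one (pow_pos (hi0 i) 2)]
    exact one_le_pow₀ (hi1 i)
  have hδpos : ∀ i, 0 < δ i := fun i => by simp only [hδ]; have := hi0 i; positivity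
  have hδθ : ∀ i, δ i ≤ θ / 16 := fun i => by
    simp only [hδ]
    rw [div_le_div_iff₀ (by have := hi0 i; (clear * -; positivity)) (by norm_num)]
    have := mul_le_mul_of_nonneg_left (hi1 i) hθ0.le
    linarith only [this]
  have hδ16 : ∀ i, δ i ≤ 1 / 16 := fun i => (hδθ i).trans (by linarith only [hθ1])
  set η : ℕ → ℝ := fun i => min η0 (κ1 * δ i / (2 * C2)) with hη
  have hηpos : ∀ i, 0 < η i := fun i =>
    lt_min hη0 (div_pos (mul_pos hκ (hδpos i)) (by positivity))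
  have hη0' : ∀ i, η i ≤ η0 := fun i => min_le_left _ _
  have hη1 : ∀ i, C2 * η i ≤ κ1 * δ i / 2 := fun i => by
    have h1 : η i ≤ κ1 * δ i / (2 * C2) := min_le_right _ _
    calc C2 * η i ≤ C2 * (κ1 * δ i / (2 * C2)) := mul_le_mul_of_nonneg_left h1 hC2.le
      _ = κ1 * δ i / 2 := by field_simp
  -- slow maps
  choose X q1 q2 hX hNF hcl hXm hXe hq1e hq2o using fun i =>
    HS.exists_slow hN hc9 hA9 hvok hvθ (hδpos i).le
      ((hδθ i).trans (by linarith only [hθ0])) (hηpos i)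
  have hlow := fun i => hT.low (δ i) (hδpos i).le (hδ16 i) (X i) (hX i)
    (fun j k p => (hXm i j k p).trans (hη0' i))
  have hS : ∀ i, Slo S D.ψ D.r cG cσ (X i) (q1 i) (q2 i) := fun i =>
    ⟨fun a => (hX i a).1, fun a => (hX i a).2, hNF i, (hlow i).1, (hlow i).2.1⟩
  -- the slow metric
  set dq : ℕ → TData P κ := fun i =>
    mkT S D.ψ D.e v D.r cG cσ (X i) (q1 i) (q2 i) 0 0 0 0 0 with hdq
  have hsmG : ∀ i, S.Sm (iv1 cG (Gw S D.ψ D.r (X i))) := fun i =>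
    sm_iv1 (sm_Gw D.ray D.rψ.1 (hS i).smX) (rl_Gw D.ray D.rψ.1 D.rψ.2 (hS i).smX (hS i).rX)
  have hsmσ : ∀ i, S.Sm (is1 cσ (Gd S D.ψ D.r (X i))) := fun i =>
    sm_is1 (sm_Gd D.ray D.rψ.1 (hS i).smX) (rl_Gd D.ray D.rψ.1 D.rψ.2 (hS i).smX (hS i).rX)
  have hQ : ∀ i j k p, ‖(dq i).Q S 1 j k p - (1 - δ i) * g j k p‖ ≤ C2 * η i :=
    fun i => hmet (δ i) (hδpos i).le (hδ16 i) (η i) (hηpos i) (hη0' i) (X i) (hX i) (hXm i)
      (dq i) rfl rfl rfl hF.iv_mul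
      (fun p hp => iv1_mul hcG (rl_Gw D.ray D.rψ.1 D.rψ.2 (hS i).smX (hS i).rX p)
        ((hS i).hG p hp))
  have hsmQ : ∀ i j k, S.Sm ((dq i).Q S 1 j k) := fun i j k =>
    sm_Q (d := dq i) D.ray D.rψ.1 (hS i).smX (hsmG i) hF.smiv j k
  -- uniform bounds of the slow functions
  have bq1 : ∀ a, ∃ B : ℝ, ∀ i p, ‖q1 i a p‖ ≤ B := fun a => ⟨1, fun i p => by
    have h := (hNF i).n11 p
    have hr := (hNF i).r1
    have h1 : ∑ b, (q1 i b p).re ^ 2 = 1 := by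
      have h2 := congrArg Complex.re h
      simp only [dot, Complex.re_sum, Complex.mul_re, hr _ p, mul_zero, sub_zero,
        Complex.one_re] at h2
      rw [← h2]
      exact Finset.sum_congr rfl fun b _ => by ring
    have h3 : (q1 i a p).re ^ 2 ≤ 1 := by
      rw [← h1]
      exact Finset.single_le_sum (f := fun b => (q1 i b p).re ^ 2) (fun _ _ => sq_nonneg _)
        (Finset.mem_univ a)
    have h4 : q1 i a p = (((q1 i a p).re : ℝ) : ℂ) :=
      Complex.ext (by simp) (by simp [hr a p])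
    rw [h4, Complex.norm_real, Real.norm_eq_abs]
    exact (sq_le_one_iff_abs_le_one _).1 h3⟩
  have bq2 : ∀ a, ∃ B : ℝ, ∀ i p, ‖q2 i a p‖ ≤ B := fun a => ⟨1, fun i p => by
    have h := (hNF i).n22 p
    have hr := (hNF i).r2
    have h1 : ∑ b, (q2 i b p).re ^ 2 = 1 := by
      have h2 := congrArg Complex.re h
      simp only [dot, Complex.re_sum, Complex.mul_re, hr _ p, mul_zero, sub_zero,
        Complex.one_re] at h2
      rw [← h2]
      exact Finset.sum_congr rfl fun b _ => by ring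
    have h3 : (q2 i a p).re ^ 2 ≤ 1 := by
      rw [← h1]
      exact Finset.single_le_sum (f := fun b => (q2 i b p).re ^ 2) (fun _ _ => sq_nonneg _)
        (Finset.mem_univ a)
    have h4 : q2 i a p = (((q2 i a p).re : ℝ) : ℂ) :=
      Complex.ext (by simp) (by simp [hr a p])
    rw [h4, Complex.norm_real, Real.norm_eq_abs]
    exact (sq_le_one_iff_abs_le_one _).1 h3⟩
  have bX : ∀ a, ∃ B : ℝ, ∀ i p, ‖X i a p‖ ≤ B := fun a => by
    obtain ⟨B, hB⟩ := S.bdd (HS.rX a).1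
    refine ⟨B + η0, fun i p => ?_⟩
    have h1 := hcl i a p
    have h2 := hη0' i
    have h3 := norm_add_le (X i a p - X1 a p) (X1 a p)
    rw [sub_add_cancel] at h3
    linarith only [hB p, h3, h2, h1]
  have bQ : ∀ j k, ∃ B : ℝ, ∀ i p,
      ‖((1 / δ i : ℝ) : ℂ) * (g j k p - (dq i).Q S 1 j k p)‖ ≤ B := fun j k => by
    obtain ⟨B, hB⟩ := S.bdd (D.gT.2 j k).1
    refine ⟨B + κ1, fun i p => ?_⟩
    have h1 := (hQ i j k p).trans (hη1 i)
    have e : g j k p - (dq i).Q S 1 j k p =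
      ((δ i : ℝ) : ℂ) * g j k p - ((dq i).Q S 1 j k p - (1 - δ i) * g j k p) := by ring
    have h2 : ‖g j k p - (dq i).Q S 1 j k p‖ ≤ δ i * B + κ1 * δ i := by
      rw [e]
      refine (norm_sub_le _ _).trans (add_le_add ?_ ?_)
      · rw [norm_mul, Complex.norm_real, Real.norm_eq_abs, abs_of_pos (hδpos i)]
        exact mul_le_mul_of_nonneg_left (hB p) (hδpos i).le
      · have : 0 ≤ κ1 * δ i := (mul_pos hκ (hδpos i)).le
        linarith only [this, h1]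
    rw [norm_mul, Complex.norm_real, Real.norm_eq_abs, abs_of_pos (one_div_pos.2 (hδpos i))]
    calc 1 / δ i * ‖g j k p - (dq i).Q S 1 j k p‖ ≤ 1 / δ i * (δ i * B + κ1 * δ i) :=
          mul_le_mul_of_nonneg_left h2 (by have := hδpos i; positivity)
      _ = B + κ1 := by have := (hδpos i).ne'; field_simp
  -- frequencies
  let α := (κ × Fin 4) ⊕ (Fin 4 ⊕ Fin 4 ⊕ Fin 4) ⊕ (κ ⊕ κ ⊕ κ ⊕ κ) ⊕
    (Unit ⊕ Unit ⊕ Unit ⊕ Unit) ⊕ (κ × κ)
  let U : α → ℕ → P → ℂ := Sum.elim (fun x i => S.D x.1 (X i x.2))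
    (Sum.elim (Sum.elim (fun a i => X i a) (Sum.elim (fun a i => q1 i a) (fun a i => q2 i a)))
    (Sum.elim (Sum.elim (fun j _ => S.D j D.ψ) (Sum.elim (fun j _ => S.D j D.r.Ψ)
      (Sum.elim (fun j _ => D.r.t j) (fun j _ => D.r.w j))))
    (Sum.elim (Sum.elim (fun _ i => iv1 cG (Gw S D.ψ D.r (X i)))
      (Sum.elim (fun _ i => is1 cσ (Gd S D.ψ D.r (X i)))
        (Sum.elim (fun _ _ => iv1 (15 / 16) v) (fun _ _ => D.e))))
      (fun x i p => ((1 / δ i : ℝ) : ℂ) * (g x.1 x.2 p - (dq i).Q S 1 x.1 x.2 p)))))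
  have hUs : ∀ x i, S.Sm (U x i) := by
    rintro (⟨j, a⟩ | (a | a | a) | (j | j | j | j) | (_ | _ | _ | _) | ⟨j, k⟩) i
    · exact S.sm_D j (hX i a).1
    · exact (hX i a).1
    · exact (hNF i).s1 a
    · exact (hNF i).s2 a
    · exact S.sm_D j D.rψ.1
    · exact S.sm_D j D.ray.smΨ
    · exact D.ray.smt j
    · exact D.ray.smw j
    · exact hsmG i
    · exact hsmσ i
    · exact hF.smiv
    · exact D.re.1
    · exact S.sm_smul _ (S.sm_sub (D.gT.2 j k).1 (hsmQ i j k))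
  have hUb : ∀ x, ∃ B : ℝ, ∀ i p, ‖U x i p‖ ≤ B := by
    rintro (⟨j, a⟩ | (a | a | a) | (j | j | j | j) | (_ | _ | _ | _) | ⟨j, k⟩)
    · exact ⟨C', fun i p => (hlow i).2.2.2 j a p⟩
    · exact bX a
    · exact bq1 a
    · exact bq2 a
    · exact ⟨Cψ, fun _ p => hCψ j p⟩
    · exact ⟨Cr, fun _ p => hCr j p⟩
    · exact ⟨Ct, fun _ p => hCt j p⟩
    · exact ⟨Cw, fun _ p => hCw j p⟩
    · exact ⟨_, fun i p => iv1_bd hcG p⟩
    · exact ⟨_, fun i p => is1_bd hcσ p⟩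
    · exact ⟨_, fun i p => iv1_bd (by norm_num) p⟩
    · exact const_bdd S D.re.1
    · exact bQ j k
  obtain ⟨n0, hn0⟩ := exists_mu S hUs hUb ε hεpos hε1
  obtain ⟨hμ1, hεμ, hSL⟩ := hn0 (fun i => max (n0 i) (max N i)) (fun i => le_max_left _ _)
  obtain ⟨L⟩ := hloop (fun i => max (n0 i) (max N i))
    (fun i => (le_max_left _ _).trans (le_max_right _ _))
  set μ : ℕ → ℝ := fun i => 2 * Real.pi * ((max (n0 i) (max N i) : ℕ) : ℝ) with hμ
  have hμge : ∀ i : ℕ, (i : ℝ) ≤ μ i := fun i => by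
    have h1 : (i : ℝ) ≤ ((max (n0 i) (max N i) : ℕ) : ℝ) := by
      exact_mod_cast (le_max_right _ _).trans (le_max_right _ _)
    have h2 : (1 : ℝ) ≤ 2 * Real.pi := by linarith [Real.pi_gt_three]
    have h3 : (0 : ℝ) ≤ ((max (n0 i) (max N i) : ℕ) : ℝ) := Nat.cast_nonneg _
    calc (i : ℝ) ≤ 1 * ((max (n0 i) (max N i) : ℕ) : ℝ) := by rw [one_mul]; exact h1
      _ ≤ 2 * Real.pi * ((max (n0 i) (max N i) : ℕ) : ℝ) := mul_le_mul_of_nonneg_right h2 h3
  have hμ0 : ∀ i, 0 ≤ μ i := fun i => le_trans zero_le_one (hμ1 i)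
  have hSC : SloC S μ ε D.ψ D.e v D.r cG cσ X q1 q2 :=
    ⟨fun j a => hSL (Sum.inl (j, a)), fun a => hSL (Sum.inr (Sum.inl (Sum.inr (Sum.inl a)))),
      fun a => hSL (Sum.inr (Sum.inl (Sum.inr (Sum.inr a)))),
      fun j => hSL (Sum.inr (Sum.inr (Sum.inl (Sum.inl j)))),
      fun j => hSL (Sum.inr (Sum.inr (Sum.inl (Sum.inr (Sum.inl j))))),
      fun j => hSL (Sum.inr (Sum.inr (Sum.inl (Sum.inr (Sum.inr (Sum.inl j)))))),
      fun j => hSL (Sum.inr (Sum.inr (Sum.inl (Sum.inr (Sum.inr (Sum.inr j)))))),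
      hSL (Sum.inr (Sum.inr (Sum.inr (Sum.inl (Sum.inl ()))))),
      hSL (Sum.inr (Sum.inr (Sum.inr (Sum.inl (Sum.inr (Sum.inl ())))))),
      hSL (Sum.inr (Sum.inr (Sum.inr (Sum.inl (Sum.inr (Sum.inr (Sum.inl ()))))))),
      hSL (Sum.inr (Sum.inr (Sum.inr (Sum.inl (Sum.inr (Sum.inr (Sum.inr ())))))))⟩
  -- the data
  set d : ℕ → TData P κ := fun i => mkT S D.ψ D.e v D.r cG cσ (X i) (q1 i) (q2 i)
    (L.c i) (L.s i) (L.h i) (L.A i) (L.B i) with hd
  have H : TData.Hyp S d 1 μ ε := ⟨one_pos, fun i => lt_of_lt_of_le one_pos (hμ1 i),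
    fun i => (hεpos i).le, hε1, fun i => mkT_ok hF hcG hcσ (hS i) L i,
    mkT_cls hF hμ1 hεμ hSC L⟩
  have hpt : ∀ i p, TData.PtOk S (d i) C c0 c1 (D.c / C) τ0 p := fun i p =>
    mkT_pt hF hcG hcσ L hc1 i hC5 (by linarith) (by linarith only [hG0, hCr0, hCψ0, hCβ0, hCw0, hCt0, hC']) D.cpos p
      (fun j => (hCt j p).trans (by linarith)) (fun j => (hCw j p).trans (by linarith))
      (fun j => (hCβ j p).trans (by linarith)) (fun j => (hCψ j p).trans (by linarith))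
      (fun j => (hCr j p).trans (by linarith))
      (fun j a => ((hlow i).2.2.2 j a p).trans (by linarith only [hσ0, hG0, hCr0, hCψ0, hCβ0, hCw0, hCt0])) ((hlow i).2.2.1 p) (D.nd p)
  obtain ⟨ε0, hε0, hgr⟩ := hgram d μ ε H hpt
  have hFm := fun j k => TData.formula_met H j k
  -- uniform constant for the metric error
  choose C3 hC30 hC3 using fun x : κ × κ => (hFm x.1 x.2).apply
  set C4 : ℝ := ∑ x : κ × κ, C3 x with hC4
  have hC40 : 0 ≤ C4 := Finset.sum_nonneg fun x _ => hC30 x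
  have hC4' : ∀ i j k p,
      ‖S.met ((d i).f S 1 (μ i)) j k p - (d i).Q S 1 j k p‖ ≤ C4 * ε i := fun i j k p => by
    refine (hC3 (j, k) i p).trans (mul_le_mul_of_nonneg_right ?_ (hεpos i).le)
    exact Finset.single_le_sum (f := C3) (fun x _ => hC30 x) (Finset.mem_univ (j, k))
  -- tail
  obtain ⟨i0, hi0'⟩ : ∃ i0 : ℕ, ∀ i, i0 ≤ i → ε i ≤ ε0 ∧ C4 * ε i ≤ κ1 * δ i / 2 := by
    obtain ⟨m1, hm1⟩ := exists_nat_ge (1 / ε0)
    obtain ⟨m2, hm2⟩ := exists_nat_ge (32 * C4 / (κ1 * θ))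
    refine ⟨max m1 m2, fun i hi => ⟨?_, ?_⟩⟩
    · have h1 : (m1 : ℝ) ≤ i := by exact_mod_cast (le_max_left m1 m2).trans hi
      have h2 : 1 / ε0 ≤ (i : ℝ) + 1 := by linarith only [h1, hm1]
      have h3 : (i : ℝ) + 1 ≤ ((i : ℝ) + 1) ^ 2 := by (by_contra nlg; linarith only [nlg, mul_pos (sub_pos.2 (not_le.1 nlg)) (sub_pos.2 (not_le.1 nlg)), mul_nonneg (sq_nonneg (↑i + 1 : ℝ)) (sub_nonneg.2 (hi1 i)), mul_nonneg (sq_nonneg (↑i + 1 : ℝ)) (le_of_lt (sub_pos.2 (not_le.1 nlg)))])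
      simp only [hε]
      rw [div_le_iff₀ (pow_pos (hi0 i) 2)]
      rw [div_le_iff₀ hε0] at h2
      (by_contra nlg; linarith only [nlg, mul_nonneg (sub_nonneg.2 h2) (sub_nonneg.2 h2), mul_nonneg (le_of_lt (sub_pos.2 hε0)) (sub_nonneg.2 h3), mul_pos (sub_pos.2 (not_le.1 nlg)) (sub_pos.2 hε0), h2])
    · have h1 : (m2 : ℝ) ≤ i := by exact_mod_cast (le_max_right m1 m2).trans hi
      have hκθ : 0 < κ1 * θ := mul_pos hκ hθ0
      have h2 : 32 * C4 / (κ1 * θ) ≤ (i : ℝ) + 1 := by linarith only [h1, hm2]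
      rw [div_le_iff₀ hκθ] at h2
      simp only [hε, hδ]
      have h3 := hi0 i
      have e1 : C4 * (1 / ((i : ℝ) + 1) ^ 2) = C4 / ((i : ℝ) + 1) ^ 2 := by ring
      have e2 : κ1 * (θ / (16 * ((i : ℝ) + 1))) / 2 = (κ1 * θ) / (32 * ((i : ℝ) + 1)) := by
        field_simp
        norm_num
      rw [e1, e2, div_le_div_iff₀ (by positivity) (by positivity)]
      calc C4 * (32 * ((i : ℝ) + 1)) = (32 * C4) * ((i : ℝ) + 1) := by ring
        _ ≤ (((i : ℝ) + 1) * (κ1 * θ)) * ((i : ℝ) + 1) := mul_le_mul_of_nonneg_right h2 h3.le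
        _ = κ1 * θ * ((i : ℝ) + 1) ^ 2 := by ring
  have hδlim : Filter.Tendsto δ Filter.atTop (nhds 0) := by
    have h2 := (tendsto_one_div_add_atTop_nhds_zero_nat (𝕜 := ℝ)).const_mul (θ / 16 : ℝ)
    rw [mul_zero] at h2
    refine h2.congr fun i => ?_
    simp only [hδ]
    have := (hi0 i).ne'
    field_simp
  have hμlim : Filter.Tendsto μ Filter.atTop Filter.atTop :=
    Filter.tendsto_atTop_mono hμge tendsto_natCast_atTop_atTop
  obtain ⟨C5, hC5', hfX⟩ := f_close H hμ1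
  have hηlim : Filter.Tendsto η Filter.atTop (nhds 0) := by
    have h1 : Filter.Tendsto (fun i => κ1 * δ i / (2 * C2)) Filter.atTop (nhds 0) := by
      have := (hδlim.const_mul κ1).div_const (2 * C2)
      simpa using this
    exact squeeze_zero (fun i => (hηpos i).le) (fun i => min_le_right _ _) h1
  have hclose : ∀ e1 : ℝ, 0 < e1 → ∀ᶠ i in Filter.atTop, ∀ a p,
      ‖(d i).f S 1 (μ i) a p - X1 a p‖ ≤ e1 := by
    intro e1 he1
    have h1 : Filter.Tendsto (fun i => C5 / μ i) Filter.atTop (nhds 0) :=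
      hμlim.const_div_atTop C5
    filter_upwards [h1.eventually_le_const (half_pos he1),
      hηlim.eventually_le_const (half_pos he1)] with i h2 h3 a p
    have h4 := hfX i a p
    have h5 : ‖(d i).X a p - X1 a p‖ ≤ η i := hcl i a p
    have h6 : (d i).f S 1 (μ i) a p - X1 a p =
      ((d i).f S 1 (μ i) a p - (d i).X a p) + ((d i).X a p - X1 a p) := by ring
    rw [h6]
    refine (norm_add_le _ _).trans ?_
    linarith
  -- conclusion
  refine ⟨fun i => μ (i + i0), fun i => δ (i + i0), fun i => (d (i + i0)).f S 1 (μ (i + i0)), c,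
    hc, fun i => hμ1 _, hμlim.comp (Filter.tendsto_add_atTop_nat i0),
    fun e1 he1 => (Filter.tendsto_add_atTop_nat i0).eventually (hclose e1 he1),
    fun i => hδpos _, fun i => (hδ16 _).trans (by norm_num), ?_,
    fun i a => H.smf _ a, fun i a => (H.ok _).rf _ a, fun i a => ?_,
    fun a => (fo_f H hμ1 (fun a => (hSL (Sum.inr (Sum.inl (Sum.inl a)))).1) a).reindex
      (fun i => i + i0), fun j a => (H.foDf j a).reindex (fun i => i + i0), fun i p => ?_,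
    fun i j k p => ?_, fun j k => ?_⟩
  · exact hδlim.comp (Filter.tendsto_add_atTop_nat i0)
  · exact (mkT_par D.inv D.ψod D.rψ.1 D.eod (fun p => hvr _ _ (D.Ψev p)) D.tev D.wev D.Ψev
      (hS _).smX (hXe _) (hq1e _) (hq2o _) L (i + i0)).f_even D.inv (hS _).smX D.rψ.1 1 _ a
  · obtain ⟨a, b, j, h⟩ := hgr (i + i0) (hi0' _ (Nat.le_add_left _ _)).1 p
    exact ⟨a, b, j, j, h⟩
  · have h1 := hC4' (i + i0) j k p
    have h2 := (hQ (i + i0) j k p).trans (hη1 (i + i0))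
    have h3 := (hi0' (i + i0) (Nat.le_add_left _ _)).2
    have e : g j k p - S.met ((d (i + i0)).f S 1 (μ (i + i0))) j k p
        - ((δ (i + i0) : ℝ) : ℂ) * g j k p =
        -((dq (i + i0)).Q S 1 j k p - (1 - δ (i + i0)) * g j k p)
        - (S.met ((d (i + i0)).f S 1 (μ (i + i0))) j k p - (d (i + i0)).Q S 1 j k p) := by
      have : (d (i + i0)).Q S 1 j k p = (dq (i + i0)).Q S 1 j k p := rfl
      rw [this]
      ring
    rw [e]
    refine (norm_sub_le _ _).trans ?_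
    rw [norm_neg]
    linarith
  · have h1 : S.FO μ δ (fun i p => g j k p - (dq i).Q S 1 j k p) := by
      have h2 := (hSL (Sum.inr (Sum.inr (Sum.inr (Sum.inr (j, k)))))).1
      have h3 := DAlg.FO.real_mul (r := δ) (fun i => (hδpos i).le) h2
      refine (h3.congr_s fun i => mul_one _).congr fun i p => ?_
      show ((δ i : ℝ) : ℂ) * (((1 / δ i : ℝ) : ℂ) * (g j k p - (dq i).Q S 1 j k p)) = _
      rw [← mul_assoc, ← Complex.ofReal_mul, mul_one_div_cancel (hδpos i).ne',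
        Complex.ofReal_one, one_mul]
    have h2 : S.FO μ δ (fun i p => S.met ((d i).f S 1 (μ i)) j k p - (d i).Q S 1 j k p) := by
      refine (hFm j k).mono_s (C := 16 / θ) (fun i => ?_) (fun i => (hδpos i).le) hμ0
      simp only [hε, hδ]
      have h3 := hi0 i
      have e1 : (16 / θ : ℝ) * (θ / (16 * ((i : ℝ) + 1))) = 1 / ((i : ℝ) + 1) := by
        field_simp
      rw [e1, div_le_div_iff₀ (by (clear * -; positivity)) h3]
      (by_contra nlg; linarith only [nlg, mul_pos (sub_pos.2 (not_le.1 nlg)) (sub_pos.2 h3), mul_nonneg (sq_nonneg (↑i + 1 : ℝ)) (sub_nonneg.2 (hi1 i))])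
    have h3 : S.FO μ δ (fun i p => g j k p - S.met ((d i).f S 1 (μ i)) j k p) := by
      refine (h1.sub h2).congr fun i p => ?_
      show (g j k p - (d i).Q S 1 j k p)
        - (S.met ((d i).f S 1 (μ i)) j k p - (d i).Q S 1 j k p) = _
      ring
    exact h3.reindex (fun i => i + i0)

end Vale.Agent.P205.TW

end
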