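import Vale.Agent.P205.H202.Chi

/-!
P205 (helper202): strictly short initial maps.  `Shr D X1 θ`: the map `X1` is short with gap `θ` and
has the normal frame of the geometric data `D`.  Variants of `slow_low`, `slow_start`, `exists_slow`
of `Bdl.B10`.
-/

noncomputable section

namespace Vale.Agent.P205.TW

open Vale.Agent.P205.F

universe u

variable {P : Type u} {κ : Type} [Fintype κ] {S : DAlg P κ} {σ : P → P} {g : κ → κ → P → ℂ}

/-- a short initial map `X1` for the data `D`, with gap `θ` -/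
structure Shr (D : GeoC S σ g) (X1 : Fin 4 → P → ℂ) (θ : ℝ) : Prop where
  θ0 : 0 < θ
  θ1 : θ ≤ 1
  rX : ∀ a, RSm S (X1 a)
  nf : CNFr S X1 D.q1 D.q2
  Xev : ∀ a, Evn σ (X1 a)
  imm : ∀ p ξ, D.c * qfm g p ξ ≤ qfm (S.met X1) p ξ
  short : ∀ p ξ, qfm (S.met X1) p ξ ≤ (1 - θ) * qfm g p ξ
  ψs : ∀ p ξ, (∑ j, (S.D j D.ψ p).re * ξ j) ^ 2 ≤ θ / 4 * qfm g p ξ

namespace Shr

variable {D : GeoC S σ g} {X1 : Fin 4 → P → ℂ} {θ : ℝ} (H : Shr D X1 θ)

include H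

/-- (A1) -/
theorem slow_low {v : P → ℂ} (hv : VOkS S σ D.r.Ψ v) (hvθ : ∀ p, 1 - θ / 16 ≤ (v p).re)
    {δ : ℝ} (h0 : 0 ≤ δ) (h1 : δ ≤ θ / 8) :
    TSm S (fun j k p => D.gS v δ j k p - S.met X1 j k p) ∧
    (∀ j k, Evn σ (fun p => D.gS v δ j k p - S.met X1 j k p)) ∧
    ∀ p ξ, θ / 2 * qfm g p ξ ≤ qfm (fun j k p => D.gS v δ j k p - S.met X1 j k p) p ξ := by
  classical
  have e : (fun j k p => D.gS v δ j k p - S.met X1 j k p) =
      fun j k p => (D.sl hv).gS δ j k p - S.met X1 j k p := by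
    funext j k p
    rw [D.gS_eq hv]
  refine ⟨⟨?_, fun j k => ⟨?_, ?_⟩⟩, fun j k p => ?_, fun p ξ => ?_⟩
  · rw [e]
    exact isT_sub ((D.sl hv).isT_gS δ) (isT_met fun a => (H.rX a).1)
  · rw [e]
    exact S.sm_sub ((D.sl hv).smgS δ j k) (GeoC.smmet H.rX j k)
  · rw [e]
    exact Rl.sub ((D.sl hv).rlgS δ j k) (GeoC.rlmet H.rX j k)
  · simp only [D.gS_even hv δ j k p, GeoC.met_even D.inv (fun a => (H.rX a).1) H.Xev j k p]
  · have hq : 0 ≤ qf g p ξ := (D.sl hv).qf_nonneg p ξ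
    have hX := H.short p ξ
    have hψ := H.ψs p ξ
    rw [qfm_eq] at hX hψ
    rw [qfm_eq] at hX
    rw [e, qfm_eq, qfm_eq, SlowD.qf_sub, (D.sl hv).qf_gS]
    have hV : (D.sl hv).V = v := rfl
    have hρ : (D.sl hv).ρ = 1 := rfl
    have hψe : (D.sl hv).ψ = D.ψ := rfl
    have hre : (D.sl hv).r = D.r := rfl
    have h2 : (1 - (v p).re ^ 2) * ((D.sl hv).Mg p).re *
        (∑ j, (S.D j (D.sl hv).r.Ψ p).re * ξ j) ^ 2 ≤ θ / 8 * qf g p ξ := by
      by_cases hp : p ∈ (D.sl hv).r.K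
      · have h3 := (D.sl hv).Mg_le hp ξ
        have h4 := hvθ p
        have h5 := (hv.b p).2
        have h6 := (hv.b p).1
        have h7 : 0 ≤ 1 - (v p).re ^ 2 := by nlinarith
        have h8 : 1 - (v p).re ^ 2 ≤ θ / 8 := by nlinarith
        rw [mul_assoc]
        calc _ ≤ (1 - (v p).re ^ 2) * qf g p ξ := mul_le_mul_of_nonneg_left h3 h7
          _ ≤ _ := mul_le_mul_of_nonneg_right h8 hq
      · have h3 : v p = 1 := (D.sl hv).VK p hp
        rw [h3]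
        simp only [Complex.one_re, one_pow, sub_self, zero_mul]
        have := H.θ0
        positivity
    rw [hV, hρ, hψe]
    have hθ0 := H.θ0
    have hθ1 := H.θ1
    set A := (1 - (v p).re ^ 2) * ((D.sl hv).Mg p).re *
        (∑ j, (S.D j (D.sl hv).r.Ψ p).re * ξ j) ^ 2
    set B := (∑ j, (S.D j D.ψ p).re * ξ j) ^ 2
    set Q := qf g p ξ
    have h9 : (1 - δ) * (Q - A) ≥ (1 - θ / 8) * (1 - θ / 8) * Q := by
      have k1 : (1 - θ / 8) * Q ≤ Q - A := by linarith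
      have k2 : 0 ≤ (1 - θ / 8) * Q := mul_nonneg (by linarith) hq
      have k3 : 0 ≤ 1 - θ / 8 := by linarith
      calc (1 - δ) * (Q - A) ≥ (1 - δ) * ((1 - θ / 8) * Q) :=
            mul_le_mul_of_nonneg_left k1 (by linarith)
        _ ≥ (1 - θ / 8) * ((1 - θ / 8) * Q) := mul_le_mul_of_nonneg_right (by linarith) k2
        _ = _ := by ring
    have h10 : (1 - θ / 8) * (1 - θ / 8) * Q ≥ (1 - θ / 4) * Q :=
      mul_le_mul_of_nonneg_right (by nlinarith) hq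
    nlinarith

/-- (A0) -/
theorem slow_start : ∃ c0 : ℝ, 0 < c0 ∧ ∀ p, c0 ≤
    (∑ j, ∑ k, (S.met X1 j j p * S.met X1 k k p - S.met X1 j k p ^ 2)).re := by
  classical
  have hc := D.cpos
  refine ⟨D.c ^ 2 * D.c, by positivity, fun p => ?_⟩
  obtain ⟨a, b, α, β, h4, -, -⟩ := D.pl.bas p
  have hq0 : ∀ ξ, 0 ≤ qf g p ξ := fun ξ => by
    have := D.gpos p ξ
    rwa [qfm_eq] at this
  have hq1 : ∀ ξ, D.c * qf g p ξ ≤ qf (S.met X1) p ξ := fun ξ => by
    have := H.imm p ξ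
    rwa [qfm_eq, qfm_eq] at this
  have hT := isT_met (S := S) (fun a => (H.rX a).1)
  have hdet := fun c d => det_cmp (T := S.met X1) (g := g) hT.1 D.gT.1.1 (p := p)
    hc.le hq0 hq1 c d
  have hr := fun j k => GeoC.rlmet H.rX j k p
  have e : ∀ j k, (S.met X1 j j p * S.met X1 k k p - S.met X1 j k p ^ 2).re =
      (S.met X1 j j p).re * (S.met X1 k k p).re - (S.met X1 j k p).re ^ 2 := by
    intro j k
    simp only [sq, Complex.sub_re, Complex.mul_re, hr]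
    ring
  have hnn : ∀ j k, 0 ≤ (S.met X1 j j p * S.met X1 k k p - S.met X1 j k p ^ 2).re := by
    intro j k
    rw [e]
    have h5 := det_cmp (T := S.met X1) (g := S.met X1) hT.1 hT.1 (p := p) (m := 0)
      le_rfl (fun ξ => (mul_nonneg hc.le (hq0 ξ)).trans (hq1 ξ)) (fun ξ => by
        rw [zero_mul]; exact (mul_nonneg hc.le (hq0 ξ)).trans (hq1 ξ))
      (Pi.single j 1) (Pi.single k 1)
    simp only [rt_single] at h5
    simpa using h5
  have h6 : D.c ^ 2 * D.c ≤ (S.met X1 a a p * S.met X1 b b p - S.met X1 a b p ^ 2).re := by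
    rw [e]
    have h7 := hdet (Pi.single a 1) (Pi.single b 1)
    simp only [rt_single] at h7
    exact (mul_le_mul_of_nonneg_left h4 (sq_nonneg _)).trans h7
  simp only [Complex.re_sum]
  refine h6.trans ?_
  refine le_trans ?_ (Finset.single_le_sum (f := fun j => ∑ k,
    (S.met X1 j j p * S.met X1 k k p - S.met X1 j k p ^ 2).re)
    (fun j _ => Finset.sum_nonneg fun k _ => hnn j k) (Finset.mem_univ a))
  exact Finset.single_le_sum (f := fun k =>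
    (S.met X1 a a p * S.met X1 k k p - S.met X1 a k p ^ 2).re)
    (fun k _ => hnn a k) (Finset.mem_univ b)

/-- the slow maps -/
theorem exists_slow (hN : NashC S) {c0 : ℝ} (hc0 : 0 < c0)
    (h0 : ∀ p, c0 ≤ (∑ j, ∑ k, (S.met X1 j j p * S.met X1 k k p
      - S.met X1 j k p ^ 2)).re) {v : P → ℂ} (hv : VOk S D.r.Ψ v)
    (hvθ : ∀ p, 1 - θ / 16 ≤ (v p).re) {δ η : ℝ} (hδ : 0 ≤ δ) (hδ1 : δ ≤ θ / 8) (hη : 0 < η) :
    ∃ X q1 q2 : Fin 4 → P → ℂ, (∀ a, RSm S (X a)) ∧ CNFr S X q1 q2 ∧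
      (∀ a p, ‖X a p - X1 a p‖ ≤ η) ∧
      (∀ j k p, ‖S.met X j k p - gSC S g D.ψ D.r D.c v δ j k p‖ ≤ η) ∧
      (∀ a, Evn σ (X a)) ∧ (∀ a, Evn σ (q1 a)) ∧ ∀ a, Odd' σ (q2 a) := by
  obtain ⟨t1, t2, t3⟩ := H.slow_low hv.toS hvθ hδ hδ1
  simp only [← gSC_eq] at t1 t2 t3
  obtain ⟨n, a, φ, ha, hφ, hae, hφo, hdec⟩ := D.prim _ t1 t2
    ⟨θ / 2, by have := H.θ0; positivity, t3⟩
  obtain ⟨Y, p1, p2, hY, hYr, hNY, hcl, hmet, heq⟩ := hN n a φ X1 D.q1 D.q2 c0 η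
    (fun i => (ha i).1) (fun i => (ha i).2) (fun i => (hφ i).1) (fun i => (hφ i).2)
    (fun a => (H.rX a).1) (fun a => (H.rX a).2) H.nf hc0 h0 hη
  obtain ⟨e1, e2, e3⟩ := heq σ (fun j u hu _ p => D.inv.D j u hu p) (fun a p => H.Xev a p)
    (fun a p => D.q1ev a p) (fun a p => D.q2od a p) (fun i p => hae i p) (fun i p => hφo i p)
  refine ⟨Y, p1, p2, fun a => ⟨hY a, hYr a⟩, hNY, hcl, fun j k p => ?_, e1, e2, e3⟩
  have h := hmet j k p
  rw [← hdec j k p] at h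
  have e : S.met X1 j k p + (gSC S g D.ψ D.r D.c v δ j k p - S.met X1 j k p) =
    gSC S g D.ψ D.r D.c v δ j k p := by ring
  rw [e] at h
  exact h

end Shr

end Vale.Agent.P205.TW

end
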