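import Vale.Agent.P205.H202.Geo

/-!
P205, density: a strictly short map on a compact surface is short with a fixed factor.
-/

noncomputable section

set_option linter.unusedSectionVars false

open scoped ContDiff

namespace Vale.Agent.P205.TW

open Vale.Agent.P205.F

universe u

variable {P : Type u} {κ : Type} [Fintype κ] {S : DAlg P κ}

open Classical in
theorem qfm_two {T : κ → κ → P → ℂ} (hT : TSm S T) (p : P) (a b : κ) (x y : ℝ) :
    qfm T p (fun j => (if j = a then x else 0) + (if j = b then y else 0)) =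
      (T a a p).re * x ^ 2 + 2 * (T a b p).re * x * y + (T b b p).re * y ^ 2 := by
  unfold qfm
  simp only [mul_add, add_mul, mul_ite, ite_mul, mul_zero, zero_mul, Finset.sum_add_distrib,
    Finset.sum_ite_eq', Finset.mem_univ, if_true]
  rw [hT.1.1 b a]
  ring_nf

theorem qfm_subT (T T' : κ → κ → P → ℂ) (p : P) (ξ : κ → ℝ) :
    qfm (fun j k q => T j k q - T' j k q) p ξ = qfm T p ξ - qfm T' p ξ := by
  unfold qfm
  rw [← Finset.sum_sub_distrib]
  refine Finset.sum_congr rfl fun j _ => ?_
  rw [← Finset.sum_sub_distrib]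
  refine Finset.sum_congr rfl fun k _ => ?_
  rw [Complex.sub_re]
  ring

/-- compactness: strictly short maps are short with a fixed factor -/
theorem exists_theta (hpos : PosS S) {σ : P → P} {g : κ → κ → P → ℂ} (D : DIn S σ g)
    (hs : ∀ p ξ, 0 < qfm g p ξ → qfm (S.met D.F) p ξ < qfm g p ξ) :
    ∃ θ : ℝ, 0 < θ ∧ θ ≤ 1 ∧ ∀ p ξ, qfm (S.met D.F) p ξ ≤ (1 - θ) * qfm g p ξ := by
  classical
  obtain ⟨c1, hc1, hpl⟩ := exists_pl hpos D.spanH D.gT D.gpos D.grank
  obtain ⟨C3, hC3, h3⟩ := exists_cmp hc1 hpl D.gT D.gpos D.metT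
  set T : κ → κ → P → ℂ := fun j k q => g j k q - S.met D.F j k q with hT
  have hTT : TSm S T := ⟨D.gT.1.sub D.metT.1, fun j k => (D.gT.2 j k).sub (D.metT.2 j k)⟩
  have hTp : ∀ p ξ, 0 ≤ qfm T p ξ := by
    intro p ξ
    rw [hT, qfm_subT]
    rcases eq_or_lt_of_le (D.gpos p ξ) with h | h
    · have h4 := (le_abs_self _).trans (h3 p ξ)
      rw [← h, mul_zero] at h4
      linarith
    · linarith [hs p ξ h]
  have hrank : ∀ p, ∃ a b, 0 < (T a a p).re * (T b b p).re - (T a b p).re ^ 2 := by
    intro p
    obtain ⟨a, b, hab⟩ := D.grank p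
    refine ⟨a, b, ?_⟩
    have hga := (det_nonneg D.gT D.gpos p a b).2
    have hgb := (det_nonneg D.gT D.gpos p b a).2
    have hga' : 0 < (g a a p).re := by
      rcases eq_or_lt_of_le hga with h | h
      · rw [← h, zero_mul] at hab
        nlinarith [sq_nonneg (g a b p).re]
      · exact h
    have key : ∀ x y : ℝ, (x ≠ 0 ∨ y ≠ 0) → 0 < (T a a p).re * x ^ 2 + 2 * (T a b p).re * x * y
        + (T b b p).re * y ^ 2 := by
      intro x y hxy
      rw [← qfm_two hTT, hT, qfm_subT]
      have h5 := hs p (fun j => (if j = a then x else 0) + (if j = b then y else 0)) (by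
        rw [qfm_two D.gT]
        have h6 : (g a a p).re * ((g a a p).re * x ^ 2 + 2 * (g a b p).re * x * y
            + (g b b p).re * y ^ 2) = ((g a a p).re * x + (g a b p).re * y) ^ 2
            + ((g a a p).re * (g b b p).re - (g a b p).re ^ 2) * y ^ 2 := by ring
        have h7 : 0 < ((g a a p).re * x + (g a b p).re * y) ^ 2
            + ((g a a p).re * (g b b p).re - (g a b p).re ^ 2) * y ^ 2 := by
          by_cases hy : y = 0
          · subst hy
            have hx : x ≠ 0 := by simpa using hxy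
            have : (g a a p).re * x ≠ 0 := mul_ne_zero hga'.ne' hx
            have h8 := pow_pos (abs_pos.2 this) 2
            rw [sq_abs] at h8
            simpa using h8
          · have h8 := pow_pos (abs_pos.2 hy) 2
            rw [sq_abs] at h8
            exact add_pos_of_nonneg_of_pos (sq_nonneg _) (mul_pos hab h8)
        rw [← h6] at h7
        exact (pos_iff_pos_of_mul_pos h7).1 hga')
      linarith
    have k1 : 0 < (T a a p).re := by
      have := key 1 0 (Or.inl one_ne_zero)
      simpa using this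
    have k2 := key (-(T a b p).re) (T a a p).re (Or.inr k1.ne')
    have k3 : 0 < (T a a p).re * ((T a a p).re * (T b b p).re - (T a b p).re ^ 2) := by
      calc 0 < _ := k2
        _ = _ := by ring
    exact (pos_iff_pos_of_mul_pos k3).1 k1
  obtain ⟨c2, hc2, hplT⟩ := exists_pl hpos D.spanH hTT hTp hrank
  obtain ⟨C, hC, h4⟩ := exists_cmp hc2 hplT hTT hTp D.gT
  refine ⟨1 / (C + 1), by positivity, ?_, fun p ξ => ?_⟩
  · rw [div_le_one (by positivity)]
    linarith
  · have h5 := (le_abs_self _).trans (h4 p ξ)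
    have h6 := hTp p ξ
    rw [hT, qfm_subT] at h5 h6
    have h7 : (C + 1) * qfm (S.met D.F) p ξ ≤ C * qfm g p ξ := by linarith
    have h8 : (1 - 1 / (C + 1)) * qfm g p ξ = (C * qfm g p ξ) / (C + 1) := by
      field_simp
      ring
    rw [h8, le_div_iff₀ (by positivity)]
    linarith

end Vale.Agent.P205.TW

end
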